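import Vale.Agent.P097F.TS.Top
import Vale.Agent.P097F.R.All
import Vale.Agent.P097F.J.Bext
import Vale.Agent.P097F.J.Bnd
import Vale.Agent.P097F.J.Fend
import Vale.Agent.P097F.J.Half
import Vale.Agent.P097F.J.Lift
import Vale.Agent.P097F.J.Loc
import Vale.Agent.P097F.J.Pure
import Vale.Agent.P097F.J.Star
import Vale.Agent.P097F.J.Step
import Vale.Agent.P097F.J.Strand
import Vale.Agent.P097F.J.Thin
import Vale.Agent.P097F.J.Trap
import Vale.Agent.P097F.J.Zend

/-!
# P097F.TS: block T is closed
-/

namespace Vale.Agent.P097F.TS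

open J in
theorem j0C : J.Spec_J0 :=
  have hX : S_BEXT := bext uniq (star uniq thin) (trap bnd (J.lift uniq)) bnd
  have hR : S_RHO := rho_of prim
  j0 (step (loc (ray uniq thin) ch disc dv bnd J.pure (strand prim) hX hR) (gen ch) dv hR)
    (zend disc dv bnd J.pure hX hR)
    (fend (ray uniq thin) ch disc dv bnd prim (strand prim) hX half0 hR uniq) (gen ch)

theorem blockT : Spec_T := specT j0C R.nosh

end Vale.Agent.P097F.TS
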