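import Vale.Agent.P097F.TS.Top
import Vale.Agent.P097F.NC.All
import Vale.Agent.P097D.L.Bnd

/-!
# P097F.TS: block L
-/

set_option linter.all false

noncomputable section

namespace Vale.Agent.P097F.TS

open Set Metric Filter Topology Complex Vale.Agent.P097F.NC

/-- **block L** -/
theorem blockL : Spec_L := by
  intro K m a₀ c₀ a0 c0
  obtain ⟨γ₀, γ0, NS⟩ := nc2 (2 * K + 2) a₀ c₀ a0 c0
  obtain ⟨j₀, hj₀⟩ := exists_nat_ge (2 / γ₀)
  refine ⟨j₀ + 16, fun j hj M => ?_⟩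
  obtain ⟨M', M1, ap⟩ := apr m j M (by omega)
  have j1 : (j₀ : ℝ) + 16 ≤ j := by exact_mod_cast hj
  have j2 := Nat.cast_nonneg (α := ℝ) j₀
  have j0 : (0 : ℝ) < j := by linarith
  obtain ⟨W₁, NS⟩ := NS (2 / j) M' (by positivity) (by
    rw [div_le_iff₀ γ0] at hj₀
    rw [div_le_iff₀ j0]
    nlinarith) M1
  refine ⟨max W₁ 3, fun W hW g Y P p T₀ L T Li nd Lf p0 pT WT TW LW TW' wa => ?_⟩
  have W2 : 3 ≤ W := (le_max_right _ _).trans hW
  have T3 : 3 ≤ T₀ := by nlinarith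
  have K1 : 1 ≤ W ^ K := one_le_pow₀ (by linarith)
  have K2 : W ^ (2 * K + 2) = (W ^ K) ^ 2 * W ^ 2 := by rw [← pow_mul, mul_comm K, pow_add]
  have K3 : 9 * (W ^ K) ^ 2 ≤ W ^ (2 * K + 2) := by
    rw [K2, mul_comm]
    exact mul_le_mul_of_nonneg_left (by nlinarith) (sq_nonneg _)
  have K4 : W ^ K ≤ (W ^ K) ^ 2 := by nlinarith
  have K5 : T₀ ^ 2 ≤ (W ^ K) ^ 2 := by gcongr
  have dep : ∀ k : ℤ, P k → ∀ x : ℂ, |x.re - k| ≤ max L 0 + 2 * p + 2 → x.im < -p →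
      (Y x).im ≤ -1 / 32 := fun k Pk x x1 x2 => by
    have := NS W ((le_max_left _ _).trans hW) _ _ p (T₀ ^ 2) (lf_shift Lf k)
      (ap _ (by simpa using Li.ap k Pk)) (act_shift Li.act k) p0 (by nlinarith) (by linarith)
      (anc_shift (wa k Pk) T3) (x - (k : ℝ)) (by
        rw [sub_re, ofReal_re]
        linarith [max_le LW (zero_le_one.trans K1)]) (by simpa using x2)
    simpa using this
  obtain ⟨k, Pk, hk⟩ := P097D.L.bnd1 g Y W p (2 / j) M' (T₀ ^ 2) (max L 0) 1 P Lf (by linarith) p0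
    (by nlinarith) (by positivity) (by rw [div_le_iff₀ j0]; linarith) (le_max_right _ _) one_pos
    (nd _ (by norm_num)) (fun k Pk => ⟨ap _ (Li.ap k Pk),
      by simpa using anc_shift (wa k Pk) T3, dep k Pk⟩) fun t₀ => by
      obtain ⟨t, ht⟩ := exists_nat_ge t₀
      obtain ⟨J, h1, h2⟩ := Li.dens t
      exact ⟨t, ht, J, fun a ha => ⟨by exact_mod_cast (h1 a ha).1, (h1 a ha).2⟩,
        by rw [one_mul]; exact_mod_cast h2⟩
  obtain ⟨B, hB⟩ := hk T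
  refine ⟨k, Pk, 1 / 32, by norm_num, B, fun x ⟨x1, x2, x3, x4⟩ => ?_⟩
  have x5 : |x.re - k| ≤ max L 0 :=
    abs_le.2 ⟨by linarith [le_max_left L 0], by linarith [le_max_left L 0]⟩
  exact ⟨by linarith [dep k Pk x (by linarith) x4], hB x x5 x3.le x4⟩

end Vale.Agent.P097F.TS
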