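import Vale.Agent.P097F.TS.Tool
import Vale.Agent.P097F.J.Defs
import Vale.Agent.P097F.T.Defs

/-!
# P097F.TS: two different obstacles are not linked
-/

set_option linter.all false

noncomputable section

namespace Vale.Agent.P097F.TS

open Set Metric Filter Topology Complex Vale.Agent.P097D Vale.Agent.P097F.D
open Vale.Agent.P097Mo (Sf)

/-- the cube roots of the critical values -/
def CC : Set ℂ := ⋃ k : ℤ, {c | k ≠ 0 ∧ c ^ 3 = 24 * Sf (k * Real.pi)}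

theorem cc_cnt : CC.Countable := by
  classical
  refine countable_iUnion fun k => Set.Finite.countable
    ((Polynomial.nthRoots 3 (24 * Sf (k * Real.pi))).toFinset.finite_toSet.subset fun c hc => ?_)
  simpa [Polynomial.mem_nthRoots] using hc.2

theorem cc_zero : (0 : ℂ) ∉ CC := by
  intro h
  obtain ⟨k, k0, e⟩ := mem_iUnion.1 h
  have s : sin ((k : ℂ) * Real.pi) = 0 := sin_int_mul_pi k
  have c := sin_sq_add_cos_sq ((k : ℂ) * Real.pi)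
  have c0 : cos ((k : ℂ) * Real.pi) ≠ 0 := fun z => by simp [s, z] at c
  have p : ((Real.pi : ℝ) : ℂ) ≠ 0 := ofReal_ne_zero.2 Real.pi_ne_zero
  have k' : (k : ℂ) ≠ 0 := Int.cast_ne_zero.2 k0
  rw [Sf, s] at e
  exact mul_ne_zero (mul_ne_zero k' p) c0 (by linear_combination e / 24)

theorem desc {g : ℂ → ℂ} {y : ℂ} (h : T.Good g J.kap y) : J.Desc g y := by
  obtain ⟨p, h, i⟩ := h
  refine ⟨p, fun τ hτ => ?_, (h 0).zero, fun τ hτ => ⟨(h τ).mem τ ⟨hτ, le_rfl⟩,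
    (h τ).reg τ ⟨hτ, le_rfl⟩, ((h τ).val τ ⟨hτ, le_rfl⟩).trans (mul_comm _ _)⟩,
    (integrableOn_Ici_iff_integrableOn_Ioi (by simp)).2 i⟩
  refine ((h (τ + 1)).cont τ ⟨hτ, by linarith⟩).mono_of_mem_nhdsWithin ?_
  exact Filter.mem_of_superset (inter_mem_nhdsWithin _ (Iio_mem_nhds (lt_add_one τ)))
    fun s hs => ⟨hs.1, hs.2.le⟩

variable {E : D.Dat} {Y : ℂ × ℂ → ℂ} {W₀ : ℂ} {T a₁ a₂ σ ρ : ℝ} {n : ℕ} {X : Fin n → ℂ → ℂ}
  {Φ Δ : Fin n → ℂ × ℂ → ℂ}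

theorem re_ne (O : Obs E Y W₀ T a₁ a₂ σ ρ n X Φ Δ) {c c' : Fin n} (h : c ≠ c') {W : ℂ}
    (m : W ∈ ball W₀ σ) : (X c' W).re ≠ (X c W).re := by
  have k : ∀ e, |(X e W).re - (X e W₀).re| < ρ / 8 := fun e =>
    (abs_re_le_norm (X e W - X e W₀)).trans_lt ((O.one e).near W m)
  have k1 := abs_lt.1 (k c)
  have k2 := abs_lt.1 (k c')
  have ρ0 := O.ρ0
  intro e
  rcases h.lt_or_gt with l | l <;> linarith [O.sep _ _ l, k1.1, k1.2, k2.1, k2.2]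

theorem band (O : Obs E Y W₀ T a₁ a₂ σ ρ n X Φ Δ) (c c' : Fin n) {t h : ℝ}
    (ht : t ∈ Icc (0 : ℝ) 1) (hh : h ∈ Icc ρ (2 * ρ)) :
    (pa (X c) (X c') (W₀, t, h)).re ∈ Icc a₁ a₂ ∧
      (pa (X c) (X c') (W₀, t, h)).im = T - h * (t * (1 - t)) ∧ h * (t * (1 - t)) < ρ := by
  obtain ⟨a1, a2, a3⟩ := O.top c
  obtain ⟨b1, b2, b3⟩ := O.top c'
  have ρ0 := O.ρ0
  refine ⟨?_, ?_, ?_⟩
  · rw [pa_re]
    constructor <;> nlinarith [ht.1, ht.2]
  · rw [pa_im, a1, b1]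
    ring
  · have : t * (1 - t) ≤ 1 / 4 := by nlinarith [sq_nonneg (t - 1 / 2)]
    nlinarith [hh.1, hh.2]

theorem inom (lt : E.b₀ < E.b₁) (O : Obs E Y W₀ T a₁ a₂ σ ρ n X Φ Δ) {c c' : Fin n} (cc : c ≠ c') :
    ∀ᶠ W in 𝓝 W₀, ∀ q ∈ Ioo (0 : ℝ) 1 ×ˢ Icc ρ (2 * ρ), (W, pa (X c) (X c') (W, q)) ∈ E.Om := by
  have ρ0 := O.ρ0
  have cX : ∀ e, ContinuousAt (X e) W₀ := fun e =>
    ((O.one e).an W₀ (mem_ball_self O.σ0)).continuousAt
  have k : ∀ᶠ W in 𝓝 W₀, ∀ q ∈ Icc (0 : ℝ) 1 ×ˢ Icc ρ (2 * ρ),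
      pa (X c) (X c') (W, q) ∈ Rc (a₁ - ρ) (a₂ + ρ) E.b₀ (T + ρ) ∧
      ∀ e, e ≠ c → e ≠ c' → ¬ Sl (X e W) (pa (X c) (X c') (W, q)) := by
    refine (isCompact_Icc.prod isCompact_Icc).eventually_forall_of_forall_eventually ?_
    rintro ⟨t, h⟩ ⟨ht, hh⟩
    obtain ⟨b1, b2, b3⟩ := band O c c' ht hh
    have cp : ContinuousAt (pa (X c) (X c')) (W₀, t, h) := pa_cont (cX c) (cX c')
    have p0 : 0 ≤ h * (t * (1 - t)) :=
      mul_nonneg (ρ0.le.trans hh.1) (mul_nonneg ht.1 (sub_nonneg.2 ht.2))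
    refine (cp.eventually_mem ((rc_open _ _ _ _).mem_nhds ⟨by linarith [b1.1], by linarith [b1.2],
      by linarith [O.lim.2.2], by linarith⟩)).and (eventually_all.2 fun e => ?_)
    by_cases e1 : e = c
    · exact .of_forall fun _ k => (k e1).elim
    by_cases e2 : e = c'
    · exact .of_forall fun _ _ k => (k e2).elim
    have ce : ContinuousAt (fun q : ℂ × ℝ × ℝ => X e q.1) (W₀, t, h) :=
      (cX e).comp continuousAt_fst
    by_cases r : (pa (X c) (X c') (W₀, t, h)).re = (X e W₀).re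
    · have : (pa (X c) (X c') (W₀, t, h)).im < (X e W₀).im := by
        rw [b2, (O.top e).1]
        refine sub_lt_self _ (mul_pos (ρ0.trans_le hh.1)
          (mul_pos (ht.1.lt_of_ne ?_) (sub_pos.2 (ht.2.lt_of_ne ?_))))
        · rintro rfl
          rw [pa_zero] at r
          exact re_ne O e1 (mem_ball_self O.σ0) r
        · rintro rfl
          rw [pa_one] at r
          exact re_ne O e2 (mem_ball_self O.σ0) r
      exact ((continuous_im.continuousAt.comp cp).eventually_lt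
        (continuous_im.continuousAt.comp ce) this).mono fun q hq _ _ s => hq.not_ge s.2
    · exact (((continuous_re.continuousAt.comp cp).sub
        (continuous_re.continuousAt.comp ce)).eventually_ne (sub_ne_zero.2 r)).mono
        fun q hq _ _ s => hq (sub_eq_zero.2 s.1)
  filter_upwards [k, ball_mem_nhds W₀ O.σ0] with W hW m ⟨t, h⟩ ⟨ht, hh⟩
  obtain ⟨k1, k2⟩ := hW (t, h) ⟨Ioo_subset_Icc_self ht, hh⟩
  have n := sub_ne_zero.2 (re_ne O cc m)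
  refine (O.om W m _ k1).2 fun e s => ?_
  by_cases e1 : e = c
  · have r := s.1
    rw [pa_re, e1] at r
    exact mul_ne_zero ht.1.ne' n (by linarith)
  by_cases e2 : e = c'
  · have r := s.1
    rw [pa_re, e2] at r
    exact mul_ne_zero (sub_pos.2 ht.2).ne' n (by linarith)
  exact k2 e e1 e2 s

theorem jfam (M : Mx E Y) : J.Fam E.g {p | (p.2, p.1) ∈ E.Om} (fun p => Y (p.2, p.1))
    (fun p => de E.g Y (p.2, p.1)) := by
  obtain ⟨o, -, -, u⟩ := om E M.ok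
  have R := fun p hp => reg sgS E.g Y E.Om M.ok.ang o M.fam p hp (M.ok.ne _ (u p hp).1)
  have sw : Continuous fun p : ℂ × ℂ => (p.2, p.1) := by fun_prop
  refine ⟨o.preimage sw, fun p hp => (ContinuousAt.comp (f := fun p : ℂ × ℂ => (p.2, p.1))
    (M.fam.an _ hp).continuousAt sw.continuousAt).continuousWithinAt,
    fun p hp => (ContinuousAt.comp (f := fun p : ℂ × ℂ => (p.2, p.1))
      (R _ hp).2.2.2.1.continuousAt sw.continuousAt).continuousWithinAt,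
    fun p hp => M.fam.lo _ hp, fun p hp => ⟨dx Y (p.2, p.1),
      (reg_snd (M.fam.an _ hp).differentiableAt.hasFDerivAt).differentiableAt.hasDerivAt, ?_⟩,
    fun p hp => ?_⟩
  · simp only [de, vv]
    ring
  · have := (R _ hp).2.2.2.2
    rw [J.sg, this]
    simp only [SS, Sf]
    ring

/-- **the seam**: two different obstacles are not linked -/
theorem tseam (J0 : J.Spec_J0) (DIR : P097F.T.Spec_DIR) (M : Mx E Y)
    (O : Obs E Y W₀ T a₁ a₂ σ ρ n X Φ Δ) (F : P097F.T.FinE E.g J.kap) {τ₀ η : ℝ} (τ0 : 0 < τ₀)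
    (η0 : 0 < η) (S : ∀ x ∈ Rc (a₁ - ρ) (a₂ + ρ) (T - ρ) T, ∀ y, ‖y - Y (W₀, x)‖ ≤ η →
      P097F.T.Sh E.g J.kap τ₀ y) {c c' : Fin n} (cc : c ≠ c') (k : ℂ) :
    ¬ ∀ w ∈ ball W₀ σ, X c' w - X c w = k * w := by
  intro L
  have ρ0 := O.ρ0
  obtain ⟨o, -, -, u⟩ := om E M.ok
  have R := fun p hp => reg sgS E.g Y E.Om M.ok.ang o M.fam p hp (M.ok.ne _ (u p hp).1)
  obtain ⟨V, V1, Vo, V0⟩ := _root_.eventually_nhds_iff.1
    ((inom M.ok.lt O cc).and (ball_mem_nhds W₀ O.σ0))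
  have z0 : (0 : ℂ) ∈ ball (0 : ℂ) (2 * √ρ) := mem_ball_self (by positivity)
  have bx : ∀ e, ∀ W ∈ V, Rc ((X e W₀).re - ρ) ((X e W₀).re + ρ) ((X e W₀).im - ρ)
      ((X e W₀).im + ρ) ∈ 𝓝 (X e W) := fun e W m => by
    have k := (O.one e).near W (V1 W m).2
    have k1 := abs_lt.1 ((abs_re_le_norm _).trans_lt k)
    have k2 := abs_lt.1 ((abs_im_le_norm _).trans_lt k)
    rw [sub_re] at k1
    rw [sub_im] at k2
    exact (rc_open _ _ _ _).mem_nhds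
      ⟨by linarith [k1.1], by linarith [k1.2], by linarith [k2.1], by linarith [k2.2]⟩
  have cX : ∀ e, ∀ W ∈ V, ContinuousAt (X e) W := fun e W m =>
    ((O.one e).an W (V1 W m).2).continuousAt
  have cy : ContinuousOn (st (X c) (X c') Y (Φ c) (Φ c')) (V ×ˢ Icc 0 1 ×ˢ Icc ρ (2 * ρ)) :=
    st_cont (fun W m => ⟨cX c W m, cX c' W m, re_ne O cc (V1 W m).2, bx c W m, bx c' W m,
      ((O.one c).ch.anΦ (W, 0) ⟨(V1 W m).2, z0⟩).continuousAt,
      ((O.one c').ch.anΦ (W, 0) ⟨(V1 W m).2, z0⟩).continuousAt⟩)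
      (fun q hq => (M.fam.an _ ((V1 _ hq.1).1 _ hq.2)).continuousAt)
      (fun W m x hx s => ((O.one c).loc W (V1 W m).2 x hx s).1)
      fun W m x hx s => ((O.one c').loc W (V1 W m).2 x hx s).1
  have cd : ContinuousOn (st (X c) (X c') (de E.g Y) (Δ c) (Δ c'))
      (V ×ˢ Icc 0 1 ×ˢ Icc ρ (2 * ρ)) :=
    st_cont (fun W m => ⟨cX c W m, cX c' W m, re_ne O cc (V1 W m).2, bx c W m, bx c' W m,
      ((O.one c).ch.anΔ (W, 0) ⟨(V1 W m).2, z0⟩).continuousAt,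
      ((O.one c').ch.anΔ (W, 0) ⟨(V1 W m).2, z0⟩).continuousAt⟩)
      (fun q hq => (R _ ((V1 _ hq.1).1 _ hq.2)).2.2.2.1.continuousAt)
      (fun W m x hx s => ((O.one c).loc W (V1 W m).2 x hx s).2)
      fun W m x hx s => ((O.one c').loc W (V1 W m).2 x hx s).2
  set y := st (X c) (X c') Y (Φ c) (Φ c') with hy
  set d := st (X c) (X c') (de E.g Y) (Δ c) (Δ c') with hd
  set K : Set (ℝ × ℝ) := Icc 0 1 ×ˢ Icc ρ (2 * ρ) with hK
  have Kc : IsCompact K := isCompact_Icc.prod isCompact_Icc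
  have near : ∀ᶠ W in 𝓝 W₀, ∀ q ∈ K, q ∈ K → W ∈ V → ‖y (W, q) - y (W₀, q)‖ < η / 2 := by
    refine Kc.eventually_forall_of_forall_eventually fun q hq => ?_
    have a : ContinuousWithinAt (fun p : ℂ × ℝ × ℝ => ‖y p - y (W₀, p.2)‖) (V ×ˢ K) (W₀, q) :=
      ((cy _ ⟨V0, hq⟩).sub (ContinuousWithinAt.comp (f := fun p : ℂ × ℝ × ℝ => (W₀, p.2))
        (cy _ ⟨V0, hq⟩) (by fun_prop) fun p hp => ⟨V0, hp.2⟩)).norm
    have b := eventually_nhdsWithin_iff.1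
      (a.eventually (gt_mem_nhds (show ‖y (W₀, q) - y (W₀, q)‖ < η / 2 by simpa using η0)))
    exact b.mono fun p hp h1 h2 => hp ⟨h2, h1⟩
  have sh : ∀ q ∈ K, ∀ z, ‖z - y (W₀, q)‖ < η / 2 → P097F.T.Sh E.g J.kap τ₀ z := by
    rintro ⟨t, h⟩ ⟨ht, hh⟩ z hz
    have a : ContinuousWithinAt (fun s : ℝ => ‖z - y (W₀, s, h)‖) (Ioo 0 1) t :=
      (continuousWithinAt_const.sub (ContinuousWithinAt.comp (f := fun s : ℝ => (W₀, s, h))
        (cy _ ⟨V0, ht, hh⟩) (by fun_prop) fun s hs => ⟨V0, Ioo_subset_Icc_self hs, hh⟩)).norm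
    haveI : (𝓝[Ioo (0 : ℝ) 1] t).NeBot :=
      mem_closure_iff_nhdsWithin_neBot.1 (by rwa [closure_Ioo zero_ne_one])
    obtain ⟨s, s1, s2⟩ := ((a.eventually (gt_mem_nhds (show ‖z - y (W₀, t, h)‖ < η by
      linarith))).and self_mem_nhdsWithin).exists
    obtain ⟨b1, b2, b3⟩ := band O c c' (Ioo_subset_Icc_self s2) hh
    have p0 : 0 < h * (s * (1 - s)) := mul_pos (ρ0.trans_le hh.1) (mul_pos s2.1 (sub_pos.2 s2.2))
    refine S (pa (X c) (X c') (W₀, s, h))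
      ⟨by linarith [b1.1], by linarith [b1.2], by linarith, by linarith⟩ z ?_
    rw [hy, st_in _ _ _ _ _ (q := (W₀, s, h)) s2] at s1
    exact s1.le
  obtain ⟨V', W1, Wo, W0⟩ := _root_.eventually_nhds_iff.1 (near.and (Vo.eventually_mem V0))
  obtain ⟨J₁, dir, mJ⟩ := (MeasureTheory.Measure.dense_of_ae
    (DIR E.g J.kap τ₀ CC M.ok.ang (by simp [J.kap]) τ0 cc_cnt cc_zero F)).exists_mem_open Wo ⟨_, W0⟩
  have JV : J₁ ∈ V := (W1 _ mJ).2
  have Jb := (V1 _ JV).2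
  have ag : AnalyticOnNhd ℂ E.g (Lo 0) := M.ok.ang.analyticOnNhd lo_open
  obtain ⟨l1, l2, l3⟩ := (O.one c).ch.lo (J₁, 0) ⟨Jb, z0⟩
  obtain ⟨m1, m2, m3⟩ := (O.one c').ch.lo (J₁, 0) ⟨Jb, z0⟩
  have hZ : ∀ x ∈ {x | (J₁, x) ∈ E.Om}, AnalyticAt ℂ (fun x => Y (J₁, x)) x ∧
      deriv (fun x => Y (J₁, x)) x ≠ 0 ∧ Y (J₁, x) ∈ Lo 0 := fun x hx =>
    ⟨AnalyticAt.comp (f := fun x => (J₁, x)) (M.fam.an _ hx)
      (analyticAt_const.prod analyticAt_id), right_ne_zero_of_mul (R _ hx).1, M.fam.lo _ hx⟩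
  obtain ⟨h, hh, gen⟩ := height (A := X c) (B := X c') (W := J₁)
    ((zeros ag l1 (fun k => l3 (by simpa using k.deriv_eq)) hZ).union
      (zeros ag.deriv l1 (fun k => l3 k.eq_of_nhds) hZ)) (re_ne O cc Jb) (by linarith : ρ < 2 * ρ)
  have hh' := Ioo_subset_Icc_self hh
  have mp : MapsTo (fun p : ℝ × ℂ => (p.2, p.1, h)) (Icc 0 1 ×ˢ V) (V ×ˢ K) :=
    fun p hp => ⟨hp.2, hp.1, hh'⟩
  have cm : ContinuousOn (fun p : ℝ × ℂ => (p.2, p.1, h)) (Icc 0 1 ×ˢ V) := by fun_prop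
  obtain ⟨B, hB⟩ := (isCompact_Icc (a := (0 : ℝ)) (b := 1)).exists_bound_of_continuousOn
    (f := fun t => d (J₁, t, h)) (cd.comp (by fun_prop) fun t ht => ⟨JV, ht, hh'⟩)
  have hB' : ∀ t ∈ Icc (0 : ℝ) 1, ‖d (J₁, t, h)‖ < B + 1 := fun t ht => by linarith [hB t ht]
  have lh : ∀ t ∈ Icc (0 : ℝ) 1, y (J₁, t, h) ∈ P097F.T.LH := fun t ht => by
    rcases ht.1.eq_or_lt with rfl | t0
    · rw [hy, st_zero]
      exact l1
    rcases ht.2.eq_or_lt with rfl | t1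
    · rw [hy, st_one]
      exact m1
    rw [hy, st_in _ _ _ _ _ (q := (J₁, t, h)) ⟨t0, t1⟩]
    exact M.fam.lo _ ((V1 _ JV).1 (t, h) ⟨⟨t0, t1⟩, hh'⟩)
  have k0 := J0 E.g _ _ _ J₁ k (B + 1) V (fun p => pa (X c) (X c') (p.2, p.1, h))
    (fun p => y (p.2, p.1, h)) (fun p => d (p.2, p.1, h)) M.ok.ang (M.ok.ne _ (O.sub Jb)) (jfam M)
    ⟨Vo.mem_nhds JV, fun p hp => (ContinuousAt.comp (f := fun p : ℝ × ℂ => (p.2, p.1, h))
      (pa_cont (cX c _ hp.2) (cX c' _ hp.2)) (by fun_prop)).continuousWithinAt, cy.comp cm mp,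
      cd.comp cm mp, fun t ht W m => ⟨(V1 W m).1 (t, h) ⟨ht, hh'⟩,
        st_in _ _ _ _ _ (q := (W, t, h)) ht, st_in _ _ _ _ _ (q := (W, t, h)) ht⟩,
      fun t ht => ?_, fun t ht a => ?_⟩
    ⟨⟨by simp only [hy, st_zero]; exact l1, by simp only [hy, st_zero]; exact l3,
      by simp only [hd, st_zero]; exact l2,
      hB' 0 ⟨le_rfl, zero_le_one⟩⟩, ((O.one c).ch.ty.imp
        (fun k W m => by simp only [hy, st_zero]; exact k W (V1 W m).2)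
        fun k W m => by simp only [hd, st_zero]; exact k W (V1 W m).2)⟩
    ⟨⟨by simp only [hy, st_one]; exact m1, by simp only [hy, st_one]; exact m3,
      by simp only [hd, st_one]; exact m2,
      hB' 1 ⟨zero_le_one, le_rfl⟩⟩, ((O.one c').ch.ty.imp
        (fun k W m => by simp only [hy, st_one]; exact k W (V1 W m).2)
        fun k W m => by simp only [hd, st_one]; exact k W (V1 W m).2)⟩
    ((isOpen_ball.eventually_mem Jb).mono fun W m => by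
      simp only [pa_zero, pa_one]
      exact L W m)
  · have := L W₀ (mem_ball_self O.σ0)
    rw [k0, zero_mul, sub_eq_zero] at this
    exact re_ne O cc (mem_ball_self O.σ0) (by rw [this])
  · have m := (V1 _ JV).1 (t, h) ⟨ht, hh'⟩
    have b := hB' t (Ioo_subset_Icc_self ht)
    have g1 : E.g (Y (J₁, pa (X c) (X c') (J₁, t, h))) ≠ 0 := fun k => gen t ht (.inl ⟨m, k⟩)
    have g2 : deriv E.g (Y (J₁, pa (X c) (X c') (J₁, t, h))) ≠ 0 :=
      fun k => gen t ht (.inr ⟨m, k⟩)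
    simp only [hy, hd, st_in _ _ _ _ _ (q := (J₁, t, h)) ht] at b ⊢
    exact ⟨M.fam.lo _ m, g1, g2, (R _ m).2.1.2.2.2.resolve_left g1,
      (jfam M).law (_, J₁) m, b⟩
  · obtain ⟨τ, -, j, j0, -, e⟩ := a
    refine desc (dir _ (mem_iUnion.2 ⟨j, j0, ?_⟩) _ (lh t ht) τ rfl
      (sh (t, h) ⟨ht, hh'⟩ _ ((W1 _ mJ).1 (t, h) ⟨ht, hh'⟩ ⟨ht, hh'⟩ JV)))
    rw [← e, J.sg, mul_pow, ← Complex.exp_nat_mul]
    push_cast
    ring_nf

end Vale.Agent.P097F.TS
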