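import Vale.Agent.P097F.D.Om
import Vale.Agent.P097F.D.Reg
import Vale.Agent.P097F.D.Sg

/-!
# P097F.TS: tools for the path between two obstacles
-/

set_option linter.all false

noncomputable section

namespace Vale.Agent.P097F.TS

open Set Metric Filter Topology Complex Vale.Agent.P097D Vale.Agent.P097F.D

theorem cnt {S : Set ℂ} (h : ∀ x ∈ S, ∀ᶠ z in 𝓝[≠] x, z ∉ S) : S.Countable :=
  (HereditarilyLindelofSpace.isLindelof S).countable_of_isDiscrete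
    (isDiscrete_iff_nhdsNE.2 fun x hx => inf_principal_eq_bot.2 (h x hx))

theorem lo_open : IsOpen (Lo 0) := isOpen_lt continuous_im continuous_const

/-- zeros of a function of the curve along a leaf -/
theorem zeros {φ Z : ℂ → ℂ} {O : Set ℂ} (hφ : AnalyticOnNhd ℂ φ (Lo 0)) {y₀ : ℂ} (m₀ : y₀ ∈ Lo 0)
    (n₀ : ¬ φ =ᶠ[𝓝 y₀] 0) (hZ : ∀ x ∈ O, AnalyticAt ℂ Z x ∧ deriv Z x ≠ 0 ∧ Z x ∈ Lo 0) :
    {x | x ∈ O ∧ φ (Z x) = 0}.Countable := by
  refine cnt fun x hx => ?_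
  obtain ⟨a, d, m⟩ := hZ x hx.1
  rcases ((hφ _ m).comp a).eventually_eq_zero_or_eventually_ne_zero with k | k
  · exfalso
    have e : φ =ᶠ[𝓝 (Z x)] 0 := by
      rw [← (a.hasStrictDerivAt).map_nhds_eq d]
      exact k
    exact n₀ (eventually_of_mem (lo_open.mem_nhds m₀)
      (hφ.eqOn_zero_of_preconnected_of_eventuallyEq_zero
        (convex_halfSpace_im_lt 0).isPreconnected m e))
  · exact k.mono fun z hz hs => hz hs.2

/-- the limit at an obstacle -/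
theorem endc {P : Type*} {l : Filter P} {F : ℂ × ℂ → ℂ} {w z u : P → ℂ} {W₁ : ℂ}
    (hF : ContinuousAt F (W₁, 0)) (hw : Tendsto w l (𝓝 W₁)) (hz : Tendsto z l (𝓝 0))
    (h : ∀ᶠ p in l, (z p = 0 ∧ u p = F (w p, 0)) ∨ (z p ≠ 0 ∧ u p = F (w p, D.sq (z p)))) :
    Tendsto u l (𝓝 (F (W₁, 0))) := by
  classical
  have k : Tendsto (fun p => if z p = 0 then 0 else D.sq (z p)) l (𝓝 0) := by
    rw [tendsto_zero_iff_norm_tendsto_zero] at hz ⊢
    have := hz.sqrt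
    rw [Real.sqrt_zero] at this
    refine this.congr fun p => ?_
    split_ifs with e
    · simp [e]
    · exact (sqS.2.2.1 _ e).symm
  refine (hF.tendsto.comp (hw.prodMk_nhds k)).congr' (h.mono fun p hp => ?_)
  rcases hp with ⟨a, b⟩ | ⟨a, b⟩
  · simp [a, b]
  · simp [a, b]

/-- the path of height `q.2.2` at the time `q.2.1` for the step `q.1` -/
def pa (A B : ℂ → ℂ) (q : ℂ × ℝ × ℝ) : ℂ :=
  A q.1 + q.2.1 * (B q.1 - A q.1) - I * (q.2.2 * (q.2.1 * (1 - q.2.1)) : ℝ)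

theorem pa_re (A B : ℂ → ℂ) (q : ℂ × ℝ × ℝ) :
    (pa A B q).re = (A q.1).re + q.2.1 * ((B q.1).re - (A q.1).re) := by
  simp only [pa, sub_re, add_re, mul_re, ofReal_re, ofReal_im, I_re, I_im, sub_im]
  ring

theorem pa_im (A B : ℂ → ℂ) (q : ℂ × ℝ × ℝ) :
    (pa A B q).im = (A q.1).im + q.2.1 * ((B q.1).im - (A q.1).im) -
      q.2.2 * (q.2.1 * (1 - q.2.1)) := by
  simp only [pa, sub_re, add_im, mul_im, ofReal_re, ofReal_im, I_re, I_im, sub_im]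
  ring

theorem pa_zero (A B : ℂ → ℂ) (W : ℂ) (h : ℝ) : pa A B (W, 0, h) = A W := by simp [pa]

theorem pa_one (A B : ℂ → ℂ) (W : ℂ) (h : ℝ) : pa A B (W, 1, h) = B W := by simp [pa]

theorem pa_cont {A B : ℂ → ℂ} {q : ℂ × ℝ × ℝ} (a : ContinuousAt A q.1) (b : ContinuousAt B q.1) :
    ContinuousAt (pa A B) q := by
  have a' : ContinuousAt (fun q : ℂ × ℝ × ℝ => A q.1) q := a.comp continuousAt_fst
  have b' : ContinuousAt (fun q : ℂ × ℝ × ℝ => B q.1) q := b.comp continuousAt_fst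
  exact (a'.add (ContinuousAt.mul (by fun_prop) (b'.sub a'))).sub (by fun_prop)

/-- a height whose path avoids a countable set -/
theorem height {A B : ℂ → ℂ} {W : ℂ} {S : Set ℂ} (hS : S.Countable) (n : (B W).re ≠ (A W).re)
    {a b : ℝ} (ab : a < b) : ∃ h ∈ Ioo a b, ∀ t ∈ Ioo (0 : ℝ) 1, pa A B (W, t, h) ∉ S := by
  have c : (⋃ x ∈ S, {h : ℝ | ∃ t ∈ Ioo (0 : ℝ) 1, pa A B (W, t, h) = x}).Countable := by
    refine hS.biUnion fun x _ => Set.Subsingleton.countable ?_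
    rintro h ⟨t, ht, e⟩ h' ⟨t', ht', e'⟩
    have e2 := e.trans e'.symm
    have r := congrArg re e2
    have i := congrArg im e2
    rw [pa_re, pa_re] at r
    rw [pa_im, pa_im] at i
    simp only at r i
    obtain rfl : t = t' := mul_right_cancel₀ (sub_ne_zero.2 n) (by linarith)
    exact mul_right_cancel₀ (mul_pos ht.1 (sub_pos.2 ht.2)).ne' (by linarith)
  obtain ⟨h, h1, h2⟩ := (c.dense_compl ℝ).exists_mem_open isOpen_Ioo (nonempty_Ioo.2 ab)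
  exact ⟨h, h2, fun t ht m => h1 (mem_biUnion m ⟨t, ht, rfl⟩)⟩

open Classical in
/-- a state function along the paths, closed up at the ends -/
def st (A B : ℂ → ℂ) (f F₀ F₁ : ℂ × ℂ → ℂ) (q : ℂ × ℝ × ℝ) : ℂ :=
  if q.2.1 = 0 then F₀ (q.1, 0) else if q.2.1 = 1 then F₁ (q.1, 0) else f (q.1, pa A B q)

theorem st_zero (A B : ℂ → ℂ) (f F₀ F₁ : ℂ × ℂ → ℂ) (W : ℂ) (h : ℝ) :
    st A B f F₀ F₁ (W, 0, h) = F₀ (W, 0) := by simp [st]

theorem st_one (A B : ℂ → ℂ) (f F₀ F₁ : ℂ × ℂ → ℂ) (W : ℂ) (h : ℝ) :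
    st A B f F₀ F₁ (W, 1, h) = F₁ (W, 0) := by simp [st]

theorem st_in (A B : ℂ → ℂ) (f F₀ F₁ : ℂ × ℂ → ℂ) {q : ℂ × ℝ × ℝ} (ht : q.2.1 ∈ Ioo (0 : ℝ) 1) :
    st A B f F₀ F₁ q = f (q.1, pa A B q) := by
  rw [st, if_neg ht.1.ne', if_neg ht.2.ne]

theorem st_cont {A B : ℂ → ℂ} {f F₀ F₁ : ℂ × ℂ → ℂ} {V : Set ℂ} {H : Set ℝ} {O₀ O₁ : Set ℂ}
    (hA : ∀ W ∈ V, ContinuousAt A W ∧ ContinuousAt B W ∧ (B W).re ≠ (A W).re ∧
      O₀ ∈ 𝓝 (A W) ∧ O₁ ∈ 𝓝 (B W) ∧ ContinuousAt F₀ (W, 0) ∧ ContinuousAt F₁ (W, 0))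
    (hf : ∀ q ∈ V ×ˢ Ioo (0 : ℝ) 1 ×ˢ H, ContinuousAt f (q.1, pa A B q))
    (h₀ : ∀ W ∈ V, ∀ x ∈ O₀, ¬ Sl (A W) x → f (W, x) = F₀ (W, D.sq (x - A W)))
    (h₁ : ∀ W ∈ V, ∀ x ∈ O₁, ¬ Sl (B W) x → f (W, x) = F₁ (W, D.sq (x - B W))) :
    ContinuousOn (st A B f F₀ F₁) (V ×ˢ Icc (0 : ℝ) 1 ×ˢ H) := by
  rintro ⟨W, t, h⟩ ⟨mW, mt, mh⟩
  obtain ⟨a, b, -, o₀, o₁, c₀, c₁⟩ := hA W mW
  have cp : ContinuousAt (pa A B) (W, t, h) := pa_cont a b
  have ct : ContinuousAt (fun q : ℂ × ℝ × ℝ => q.2.1) (W, t, h) := by fun_prop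
  have cw : Tendsto (fun q : ℂ × ℝ × ℝ => q.1) (𝓝[V ×ˢ Icc (0 : ℝ) 1 ×ˢ H] (W, t, h)) (𝓝 W) :=
    continuousAt_fst.tendsto.mono_left nhdsWithin_le_nhds
  rcases mt.1.eq_or_lt with e | t0
  · obtain rfl : t = 0 := e.symm
    rw [ContinuousWithinAt, st_zero]
    refine endc (z := fun q => pa A B q - A q.1) c₀ cw ?_ ?_
    · have := (cp.tendsto.mono_left (nhdsWithin_le_nhds (s := V ×ˢ Icc (0 : ℝ) 1 ×ˢ H))).sub
        (a.tendsto.comp cw)
      rwa [pa_zero, sub_self] at this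
    · filter_upwards [self_mem_nhdsWithin, nhdsWithin_le_nhds (ct.eventually_lt continuousAt_const
        zero_lt_one), nhdsWithin_le_nhds (cp.eventually_mem (by rwa [pa_zero]))] with
        ⟨W', t', h'⟩ ⟨m1, m2, m3⟩ q1 q2
      rcases m2.1.eq_or_lt with e | t0
      · obtain rfl : t' = 0 := e.symm
        exact .inl ⟨by rw [pa_zero, sub_self], st_zero ..⟩
      · have n : (pa A B (W', t', h')).re ≠ (A W').re := by
          rw [pa_re]
          exact fun k => mul_ne_zero t0.ne' (sub_ne_zero.2 (hA W' m1).2.2.1) (by linarith)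
        exact .inr ⟨fun k => n (by rw [sub_eq_zero.1 k]),
          (st_in A B f F₀ F₁ ⟨t0, q1⟩).trans (h₀ W' m1 _ q2 fun k => n k.1)⟩
  rcases mt.2.eq_or_lt with e | t1
  · obtain rfl : t = 1 := e
    rw [ContinuousWithinAt, st_one]
    refine endc (z := fun q => pa A B q - B q.1) c₁ cw ?_ ?_
    · have := (cp.tendsto.mono_left (nhdsWithin_le_nhds (s := V ×ˢ Icc (0 : ℝ) 1 ×ˢ H))).sub
        (b.tendsto.comp cw)
      rwa [pa_one, sub_self] at this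
    · filter_upwards [self_mem_nhdsWithin, nhdsWithin_le_nhds (continuousAt_const.eventually_lt ct
        zero_lt_one), nhdsWithin_le_nhds (cp.eventually_mem (by rwa [pa_one]))] with
        ⟨W', t', h'⟩ ⟨m1, m2, m3⟩ q1 q2
      rcases m2.2.eq_or_lt with e | t1
      · obtain rfl : t' = 1 := e
        exact .inl ⟨by rw [pa_one, sub_self], st_one ..⟩
      · have n : (pa A B (W', t', h')).re ≠ (B W').re := by
          rw [pa_re]
          exact fun k => mul_ne_zero (sub_pos.2 t1).ne' (sub_ne_zero.2 (hA W' m1).2.2.1)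
            (by linarith)
        exact .inr ⟨fun k => n (by rw [sub_eq_zero.1 k]),
          (st_in A B f F₀ F₁ ⟨q1, t1⟩).trans (h₁ W' m1 _ q2 fun k => n k.1)⟩
  · refine ContinuousAt.continuousWithinAt (ContinuousAt.congr
      (ContinuousAt.comp (f := fun q : ℂ × ℝ × ℝ => (q.1, pa A B q))
        (hf (W, t, h) ⟨mW, ⟨t0, t1⟩, mh⟩) (continuousAt_fst.prodMk cp)) ?_)
    filter_upwards [ct.eventually_mem (isOpen_Ioo.mem_nhds ⟨t0, t1⟩)] with q hq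
    exact (st_in A B f F₀ F₁ hq).symm

end Vale.Agent.P097F.TS
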