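import Vale.Agent.P097F.TS.Main
import Vale.Agent.P097F.Defs
import Vale.Agent.P097F.R.Defs
import Vale.Agent.P097F.NC.Low
import Vale.Agent.P097F.T.All

/-!
# P097F.TS: block T
-/

set_option linter.all false

noncomputable section

namespace Vale.Agent.P097F.TS

open Set Metric Filter Topology Complex Vale.Agent.P097F.NC

theorem lf_shift {g Y : ℂ → ℂ} {W p : ℝ} (L : Lf g W p Y) (k : ℝ) :
    Lf (fun y => g (y + k)) W p fun x => Y (x + k) - k := by
  have e : ∀ x, dl (fun y => g (y + k)) (fun x => Y (x + k) - k) W x = dl g Y W (x + k) :=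
    fun x => by simp only [dl, sub_add_cancel, deriv_sub_const, deriv_comp_add_const]
  refine ⟨L.dg.comp (by fun_prop) fun y hy => by simpa using hy,
    (L.dY.comp (by fun_prop) fun y hy => by simpa using hy).sub_const _, fun x hx => ?_,
    fun x hx => ?_⟩
  · simpa using L.pos (x + k) (by simpa using hx)
  · rw [e, sub_add_cancel]
    exact L.md _ (by simpa using hx)

theorem act_shift {g : ℂ → ℂ} {a c : ℝ} (A : Act g a c) (k : ℝ) :
    Act (fun y => g (y + k)) a c := by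
  intro s τ t0 t1
  obtain ⟨y, h1, h2, h3⟩ := A (s + k) τ t0 t1
  refine ⟨y - k, by simpa using h1, ?_, by simpa using h3⟩
  simpa [sub_sub, add_comm] using h2

theorem anc_shift {Y : ℂ → ℂ} {k T₀ : ℝ} (h : WA Y k T₀) (T3 : 3 ≤ T₀) :
    Anc (fun x => Y (x + k) - k) (T₀ ^ 2) := by
  intro x x1 x2
  have t9 : 9 ≤ T₀ ^ 2 := by nlinarith
  have := h (x + k) (by simp; linarith) (by
    simp only [add_re, ofReal_re, add_sub_cancel_right, add_im, ofReal_im, add_zero]
    set t := -x.im with ht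
    have e : x.im ^ 4 = t ^ 2 * t ^ 2 := by rw [ht]; ring
    have a : T₀ ^ 4 ≤ t ^ 2 := by nlinarith
    have b : 2 + |x.re| < t ^ 2 := by nlinarith
    rw [e]
    exact (mul_lt_mul_of_pos_left b (by positivity)).trans_le (by gcongr))
  rw [sub_sub, add_comm (k : ℂ)]
  linarith

theorem sh_shift {g : ℂ → ℂ} {κ y : ℂ} {τ₀ k : ℝ}
    (h : P097F.T.Sh (fun y => g (y + k)) κ τ₀ (y - k)) : P097F.T.Sh g κ τ₀ y := by
  intro p τ τ0 t
  have := h (fun s => p s - k) τ τ0 ⟨t.cont.sub continuousOn_const, by rw [t.zero],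
    fun s hs => by simpa [P097F.T.LH] using t.mem s hs,
    fun s hs => by simpa [deriv_comp_add_const] using t.reg s hs,
    fun s hs => by simpa using t.val s hs⟩
  simpa using this

/-- **block T** -/
theorem specT (J0 : J.Spec_J0) (NS : R.Spec_NOSH) : Spec_T := by
  intro K m a₀ c₀ a0 c0
  obtain ⟨γ₀, γ0, NS⟩ := NS (2 * K) a₀ c₀ a0 c0
  obtain ⟨j₀, hj₀⟩ := exists_nat_ge (2 / γ₀)
  refine ⟨j₀ + 1, fun j hj M => ?_⟩
  obtain ⟨M', M1, ap⟩ := apr m j M (by omega)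
  have j1 : (j₀ : ℝ) + 1 ≤ j := by exact_mod_cast hj
  have j0 : (0 : ℝ) < j := by linarith [Nat.cast_nonneg (α := ℝ) j₀]
  obtain ⟨W₁, NS⟩ := NS (2 / j) M' (by positivity) (by
    rw [div_le_iff₀ γ0] at hj₀
    rw [div_le_iff₀ j0]
    nlinarith) M1
  refine ⟨max W₁ 2, fun W hW Y P p T₀ k E Y₂ a₁ a₂ σ ρ n X Φ Δ Li L p0 pT WT TW Pk wa l1 l2 l3 Mx e O
    c c' κ lk => ?_⟩
  have W2 : 2 ≤ W := (le_max_right _ _).trans hW
  have T3 : 3 ≤ T₀ := by nlinarith
  have K1 : 1 ≤ W ^ K := one_le_pow₀ (by linarith)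
  have K2 : W ^ (2 * K) = (W ^ K) ^ 2 := by rw [← pow_mul, mul_comm]
  have K3 : W ^ K ≤ W ^ (2 * K) := by rw [K2]; nlinarith
  by_contra cc
  refine tseam J0 P097F.T.dirC Mx O Li.fe (τ₀ := 1 / 64) (η := 1 / 1000) (by norm_num)
    (by norm_num) (fun x hx y hy => ?_) cc κ lk
  obtain ⟨x1, x2, x3, x4⟩ := hx
  obtain ⟨o1, o2, o3⟩ := O.lim
  have lt := Mx.ok.lt
  rw [(e x ⟨by linarith, by linarith, by linarith, x4⟩).2] at hy
  refine sh_shift (k := (k : ℝ)) (NS W ((le_max_left _ _).trans hW) _ _ p (T₀ ^ 2)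
    (lf_shift L k) (ap _ (by simpa using Li.ap k Pk)) (act_shift Li.act k) p0 (by nlinarith)
    (by rw [K2]; gcongr) (anc_shift wa T3) (x - (k : ℝ)) ?_ ?_ ?_ _ _ ?_ (by simp [J.kap])
    (by simp [J.kap]))
  · rw [sub_re, ofReal_re, abs_le]
    constructor <;> linarith
  · rw [sub_im, ofReal_im]
    linarith
  · rw [sub_im, ofReal_im]
    linarith
  · simpa using hy

end Vale.Agent.P097F.TS
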